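import Vale.Agent.P290.H686.UTrans
import Vale.Agent.P290.H867.OmB
import Vale.Agent.P290.H610.TwGeo
import Vale.Agent.P290.H342.Inst
import Vale.Agent.P290.H362.Trans

/-! P290 / H686 (TW-LAT): the lattice half of the record `Tw` in terms of `UData`. -/

set_option linter.unusedVariables false
set_option linter.unusedSectionVars false
set_option linter.unusedSimpArgs false

open scoped Manifold ContDiff ComplexConjugate Matrix
open MeasureTheory Set Filter Topology

noncomputable section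

namespace Vale.Agent.P290.H686

open Vale.Agent.P267 Vale.Agent.P267.H332 Vale.Agent.P267.H757
open Vale.Agent.P267.BlockC Vale.Agent.P267.RR Vale.Agent.P290.H342 Vale.Agent.P290.H445
open Vale.Agent.P290.H867 (CutData OmF nD kD)

theorem OmF_smooth (X : All.K3) : (OmF X).Smooth where
  s20 := Reg0_Om X
  s11 := by
    intro e he i j
    have : (fun z => FL.loc11 e (OmF X).f11 z i j) = fun _ => 0 := by
      funext z
      simp [FL.loc11, OmF]
    rw [this]
    exact contDiffOn_const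
  s02 := by
    intro e he
    have : FL.loc2 0 e (OmF X).f02 = fun _ => 0 := by
      funext z
      simp [FL.loc2, OmF]
    rw [this]
    exact contDiffOn_const

section

attribute [local instance] H867.manifoldRS H867.manifoldK3 H867.t2RS

variable {X : All.K3} {π : X.X → H610.sphere.C} (D : CutData X.volForm π)
  (hπ : MDifferentiable 𝓘(ℂ, ℂ × ℂ) 𝓘(ℂ) π) (b : ℂ)

theorem isDiffeo_ib : IsDiffeo (H610.ib D hπ b) := H867.isDiffeo_idb D hπ b

theorem pb2_ib (hnl : ∀ (c : H610.sphere.C) (y : X.X), ∃ᶠ z in 𝓝 y, π z ≠ c) :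
    pb2 (H610.ib D hπ b) (OmF (H610.Xb D hπ b)) =
      OmF X + b • cF (nD D) - b • (kD D).d := H867.pb2_OmF_cF D hπ b hnl

variable {N : ℕ} (U : UData X.X N)

/-- the lattice data of `X_b` -/
def uXb : UData (H610.Xb D hπ b).X N := uTrans (H610.ib D hπ b) (isDiffeo_ib D hπ b) U

theorem uXb_B : (uXb D hπ b U).B = U.B := rfl

/-- **the periods of `X_b`** -/
theorem per_uXb (hnl : ∀ (c : H610.sphere.C) (y : X.X), ∃ᶠ z in 𝓝 y, π z ≠ c) (k : Fin N → ℤ) :
    pair (OmF (H610.Xb D hπ b)) ((uXb D hπ b U).comb k) = pair (OmF X) (U.comb k) +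
      b * (-(4 * (Real.pi : ℂ) ^ 2) * (U.B (U.clN (nD D)) k : ℂ)) := by
  have hI : IntAx X.X := intAx
  have hL : LBFacts X.X := lbFacts X.X
  have hk := U.comb_mem hL k
  have hnf : IsNormFn FL.C2 (nD D) := H867.isNormFn_nD D hπ hnl
  have hc : (cF (nD D)).Smooth := cF_smooth hnf
  have hd : ExactTwo (kD D).d := ⟨kD D, H867.kD_smooth D hπ, rfl⟩
  have hds : (kD D).d.Smooth := by
    have h := H867.eta_eq D hπ hnl
    have h2 : (kD D).d = H867.eta D + cF (nD D) := by rw [h]; abel
    rw [h2]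
    exact TwoF_smooth_add (H867.eta_smooth D hπ) hc
  rw [uXb, pair_comb_uTrans (H610.ib D hπ b) (isDiffeo_ib D hπ b) U hL
    (lbFacts (H610.Xb D hπ b).X) (OmF_smooth _), pb2_ib D hπ b hnl]
  have e1 : OmF X + b • cF (nD D) - b • (kD D).d =
      (OmF X + b • cF (nD D)) + (-b) • (kD D).d := by rw [neg_smul, sub_eq_add_neg]
  rw [e1, pair_add_left hI (TwoF_smooth_add (OmF_smooth X) (TwoF_smooth_smul b hc))
    (TwoF_smooth_smul (-b) hds) hk.1, pair_add_left hI (OmF_smooth X) (TwoF_smooth_smul b hc) hk.1,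
    pair_smul_left hI b hc hk.1, pair_smul_left hI (-b) hds hk.1, pair_exact hI hd hk, mul_zero,
    add_zero, U.pair_of_hasCl hL hI (mem_HC_iff.2 ⟨hc, cF_closed hnf⟩) hk
      (U.clN_spec (nflbY X.X) hnf) (UData.hasCl_comb U k)]

/-- **the classes of norm functions which are equal to one over the core** -/
theorem cl_uXb {N' : X.X → ℝ} (hN : IsNormFn FL.C2 N')
    (h : ∃ V, IsOpen V ∧ π ⁻¹' D.core ⊆ V ∧ ∀ x ∈ V, N' x = 1) :
    (uXb D hπ b U).clN (fun y => N' ((H610.ib D hπ b).symm y)) = U.clN N' := by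
  obtain ⟨V, hV, hKV, h1⟩ := h
  have hcore : IsClosed D.core :=
    haveI := H610.sphere.t2
    D.isClosed_core
  have hN' : IsNormFn FL.C2 fun y => N' ((H610.ib D hπ b).symm y) := by
    refine H362.nf_comp (X := X) (Y := H610.Xb D hπ b) (H610.ib D hπ b).symm
      (H610.ib D hπ b).symm.isOpenMap (H610.contMDiff_ib_symm D hπ b)
      (K := (H610.ib D hπ b).symm ⁻¹' (π ⁻¹' D.core))
      ((hcore.preimage hπ.continuous).preimage (H610.ib D hπ b).symm.continuous) ?_ hN
      (V := (H610.ib D hπ b).symm ⁻¹' V) (hV.preimage (H610.ib D hπ b).symm.continuous) ?_ ?_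
    · intro y hy
      exact H610.md_fl_of_hol (H610.hol_ib_symm D hπ b hy)
    · intro y hy
      exact hKV hy
    · exact fun y hy => h1 _ hy
  exact clN_uTrans (H610.ib D hπ b) (isDiffeo_ib D hπ b) U (H610.contMDiff_ib D hπ b)
    (K := π ⁻¹' D.core) (hcore.preimage hπ.continuous)
    (fun x hx => H610.md_fl_of_hol (H610.hol_ib D hπ b hx)) hN hN' hV hKV h1

end

end Vale.Agent.P290.H686
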