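import Vale.Agent.P290.H686.CFTrans
import Vale.Agent.P290.H686.Lin
import Vale.Agent.P290.H342.UData
import Vale.Agent.P267.H399.LBCurv

/-! P290 / H686 (TW-LAT): transport of the lattice data along an orientation preserving real
diffeomorphism. -/

set_option linter.unusedVariables false
set_option linter.unusedSectionVars false
set_option linter.unusedSimpArgs false

open scoped Manifold ContDiff ComplexConjugate Matrix
open MeasureTheory Set Filter Topology
open Vale.Agent.P267.FL Vale.Agent.P267.H332 Vale.Agent.P267.H757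
open Vale.Agent.P267.BlockC Vale.Agent.P267.RR Vale.Agent.P290.H342

noncomputable section

namespace Vale.Agent.P290.H686

variable {X : Type} [TopologicalSpace X] [ChartedSpace C2 X] [IsManifold 𝓘(ℂ, C2) ω X]
variable {Y : Type} [TopologicalSpace Y] [ChartedSpace C2 Y] [IsManifold 𝓘(ℂ, C2) ω Y]

/-- pullback of line bundles with their index type -/
def pbALB (φ : X → Y) (hφ : IsSm φ) (L : ALB Y) : ALB X := ⟨L.ι, pbL φ hφ L.L⟩

theorem curv_pbALB {φ : X → Y} (hφ : IsSm φ) (L : ALB Y) :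
    (pbALB φ hφ L).L.curv = pb2 φ L.L.curv := curv_pbL hφ L.L

theorem exactTwo_pb2_iff (φ : X ≃ₜ Y) (hφ : IsDiffeo φ) {F : TwoF Y} :
    ExactTwo (pb2 φ F) ↔ ExactTwo F := pb2_exact_iff φ hφ

theorem exactTwo_pb2_iff' (φ : X ≃ₜ Y) (hφ : IsDiffeo φ) {F : TwoF X} :
    ExactTwo (pb2 φ.symm F) ↔ ExactTwo F := pb2_exact_iff φ.symm hφ.symm

theorem pb2_curv_pb (φ : X ≃ₜ Y) (hφ : IsDiffeo φ) (L : ALB X) :
    pb2 φ (pbALB φ.symm hφ.smooth' L).L.curv = L.L.curv := by
  rw [curv_pbALB, pb2_pb2_symm φ hφ]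

section compact

variable [T2Space X] [CompactSpace X] [T2Space Y] [CompactSpace Y]

theorem pair_pb2 (φ : X ≃ₜ Y) (hφ : IsDiffeo φ) {F G : TwoF Y} (hF : F.Smooth) (hG : G.Smooth) :
    pair (pb2 φ F) (pb2 φ G) = pair F G := intX_wedge_pb2' φ hφ hF hG

theorem isec_pbL (φ : X ≃ₜ Y) (hφ : IsDiffeo φ) {ι ι' : Type} [Fintype ι] [DecidableEq ι]
    [Fintype ι'] [DecidableEq ι'] (L : LB Y ι) (L' : LB Y ι') :
    isec (pbL φ hφ.smooth L) (pbL φ hφ.smooth L') = isec L L' := by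
  rw [isec, isec, curv_pbL, curv_pbL, intX_wedge_pb2' φ hφ L.curv_smooth L'.curv_smooth]

/-- transport of the lattice data to `Y` -/
def uTrans (φ : X ≃ₜ Y) (hφ : IsDiffeo φ) {N : ℕ} (U : UData X N) : UData Y N := by
  have key : ∀ (F : TwoF Y) (t : Fin N → ℂ),
      ExactTwo (F - ∑ i, t i • (pbALB φ.symm hφ.smooth' (U.E i)).L.curv) ↔
        ExactTwo (pb2 φ F - ∑ i, t i • (U.E i).L.curv) := by
    intro F t
    rw [← exactTwo_pb2_iff φ hφ, pb2_sub, pb2_sum_smul]
    simp only [pb2_curv_pb φ hφ]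
  exact
  { E := fun i => pbALB φ.symm hφ.smooth' (U.E i)
    G := U.G
    isec_eq := fun i j => by
      rw [← U.isec_eq i j]
      exact isec_pbL φ.symm hφ.symm (U.E i).L (U.E j).L
    unit := U.unit
    span := fun F hF hc => by
      obtain ⟨t, ht, hu⟩ := U.span (pb2 φ F) (pb2_smooth hφ.smooth hF) (pb2_closed hφ.smooth hF hc)
      exact ⟨t, (key F t).2 ht, fun s hs => hu s ((key F s).1 hs)⟩
    mem := fun L => by
      obtain ⟨k, hk⟩ := U.mem (pbALB φ hφ.smooth L)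
      refine ⟨k, (key _ _).2 ?_⟩
      rw [curv_pbALB] at hk
      exact hk
    surj := fun k => by
      obtain ⟨L, hL⟩ := U.surj k
      refine ⟨pbALB φ.symm hφ.smooth' L, (key _ _).2 ?_⟩
      rw [pb2_curv_pb φ hφ]
      exact hL }

variable {N : ℕ} (φ : X ≃ₜ Y) (hφ : IsDiffeo φ) (U : UData X N)

@[simp] theorem uTrans_G : (uTrans φ hφ U).G = U.G := rfl

@[simp] theorem uTrans_B : (uTrans φ hφ U).B = U.B := rfl

theorem pb2_combC (t : Fin N → ℂ) : pb2 φ ((uTrans φ hφ U).combC t) = U.combC t := by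
  rw [UData.combC, pb2_sum_smul, UData.combC]
  exact Finset.sum_congr rfl fun i _ => by
    congr 1
    exact pb2_curv_pb φ hφ (U.E i)

theorem pb2_comb (k : Fin N → ℤ) : pb2 φ ((uTrans φ hφ U).comb k) = U.comb k :=
  pb2_combC φ hφ U _

theorem comb_uTrans (k : Fin N → ℤ) : (uTrans φ hφ U).comb k = pb2 φ.symm (U.comb k) := by
  rw [← pb2_comb φ hφ U k, pb2_symm_pb2 φ hφ]

/-- classes of forms are transported -/
theorem hasCl_uTrans_iff {F : TwoF Y} {k : Fin N → ℤ} :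
    (uTrans φ hφ U).HasCl F k ↔ U.HasCl (pb2 φ F) k := by
  rw [UData.HasCl, UData.HasCl, ← exactTwo_pb2_iff φ hφ, pb2_sub, pb2_comb]

omit [T2Space X] [CompactSpace X] [T2Space Y] [CompactSpace Y] in
open Classical in
theorem dite_choose_congr (P Q : (Fin N → ℤ) → Prop) (h : P = Q) :
    (if h : ∃ k, P k then h.choose else (0 : Fin N → ℤ)) =
      if h : ∃ k, Q k then h.choose else (0 : Fin N → ℤ) := by
  subst h
  rfl

/-- **classes of norm functions are transported** (`cl_eq`) -/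
theorem clN_uTrans (hs : ContMDiff 𝓘(ℝ, C2) 𝓘(ℝ, C2) ∞ φ) {K : Set X} (hK : IsClosed K)
    (hh : ∀ x, x ∉ K → MDifferentiableAt 𝓘(ℂ, C2) 𝓘(ℂ, C2) φ x) {N' : X → ℝ}
    (hN : IsNormFn C2 N') (hN' : IsNormFn C2 fun y => N' (φ.symm y)) {V : Set X}
    (hV : IsOpen V) (hKV : K ⊆ V) (h1 : ∀ x ∈ V, N' x = 1) :
    (uTrans φ hφ U).clN (fun y => N' (φ.symm y)) = U.clN N' := by
  have h := pb2_cF φ hs hK hh hN hN' hV hKV h1
  have h2 : (fun k => (uTrans φ hφ U).HasCl (cF fun y => N' (φ.symm y)) k) =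
      fun k => U.HasCl (cF N') k := by
    funext k
    rw [hasCl_uTrans_iff, h]
  exact dite_choose_congr _ _ h2

/-- the pairing with a transported class -/
theorem pair_comb_uTrans (hL : LBFacts X) (hLY : LBFacts Y) {F : TwoF Y} (hF : F.Smooth)
    (k : Fin N → ℤ) : pair F ((uTrans φ hφ U).comb k) = pair (pb2 φ F) (U.comb k) := by
  rw [← pair_pb2 φ hφ hF ((uTrans φ hφ U).comb_mem hLY k).1, pb2_comb]

/-- the periods of the twisted form -/
theorem pair_twist (hI : IntAx X) (hL : LBFacts X) (hLY : LBFacts Y) {Ωx η : TwoF X} {Ωy : TwoF Y}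
    (hΩy : Ωy.Smooth) (hΩx : Ωx.Smooth) {e : Fin N → ℤ} {b c : ℂ}
    (hη : η.Smooth) (hcl : ExactTwo (η - c • U.comb e)) (h : pb2 φ Ωy = Ωx + b • η)
    (k : Fin N → ℤ) :
    pair Ωy ((uTrans φ hφ U).comb k) = pair Ωx (U.comb k) +
      b * (c * (-(4 * (Real.pi : ℂ) ^ 2) * (U.B e k : ℂ))) := by
  have hk := U.comb_mem hL k
  have he := U.comb_mem hL e
  rw [pair_comb_uTrans φ hφ U hL hLY hΩy, h, pair_add_left hI hΩx (TwoF_smooth_smul b hη) hk.1,
    pair_smul_left hI b hη hk.1]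
  congr 2
  have h1 := pair_exact hI hcl hk
  have h2 : η = (η - c • U.comb e) + c • U.comb e := by abel
  have hs : (η - c • U.comb e).Smooth := by
    have := TwoF_smooth_add hη (TwoF_smooth_smul (-1) (TwoF_smooth_smul c he.1))
    rw [neg_one_smul, ← sub_eq_add_neg] at this
    exact this
  conv_lhs => rw [h2]
  rw [pair_add_left hI hs (TwoF_smooth_smul c he.1) hk.1, h1, zero_add,
    pair_smul_left hI c he.1 hk.1, U.pair_comb hL hI]

end compact

end Vale.Agent.P290.H686
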