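import Vale.Agent.P290.H686.TwLatU
import Vale.Agent.P290.H342.GeoInst
import Vale.Agent.P290.H362.ClND
import Vale.Agent.P290.H362.Final

/-! P290 / H686 (TW-LAT): the lattice half of the twists for the geometry `geo` of helper342. -/

set_option linter.unusedVariables false
set_option linter.unusedSectionVars false
set_option linter.unusedSimpArgs false

open scoped Manifold ContDiff ComplexConjugate Matrix
open MeasureTheory Set Filter Topology

noncomputable section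

namespace Vale.Agent.P290.H686

open Vale.Agent.P267 Vale.Agent.P267.H332 Vale.Agent.P267.H757
open Vale.Agent.P267.BlockC Vale.Agent.P267.RR Vale.Agent.P290.H342 Vale.Agent.P290.H445
open Vale.Agent.P290.H867 (CutData OmF nD kD)

attribute [local instance] H867.manifoldRS H867.manifoldK3 H867.t2RS

section
variable {Z : All.K3} {N : ℕ} (U : UData Z.X N) (hF : FiniteStmt Z.X) (hS : SerreStmt Z.X) (hR : RRStmt Z.X)

theorem geo_B (x y : Fin N → ℤ) : (geo U hF hS hR).T.B x y = U.B x y := rfl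
theorem geo_σ (x : Fin N → ℤ) : (geo U hF hS hR).σ x = pair (OmT Z) (U.comb x) := rfl
theorem geo_cl : (geo U hF hS hR).T.cl = U.clN := rfl
end

section
variable {X : All.K3} {π : X.X → H610.sphere.C} (D : CutData X.volForm π)
  (hπ : MDifferentiable 𝓘(ℂ, ℂ × ℂ) 𝓘(ℂ) π) (b : ℂ) {N : ℕ} (U : UData X.X N)
  (hF : FiniteStmt X.X) (hS : SerreStmt X.X) (hR : RRStmt X.X)
  (hF' : FiniteStmt (H610.Xb D hπ b).X) (hS' : SerreStmt (H610.Xb D hπ b).X) (hR' : RRStmt (H610.Xb D hπ b).X)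

/-- the identification of the lattices of `X` and of its twist -/
def tauX : (geo U hF hS hR).T.H ≃+ (geo (uXb D hπ b U) hF' hS' hR').T.H := AddEquiv.refl (Fin N → ℤ)

theorem tauX_B (x y) : (geo (uXb D hπ b U) hF' hS' hR').T.B (tauX D hπ b U hF hS hR hF' hS' hR' x)
  (tauX D hπ b U hF hS hR hF' hS' hR' y) = (geo U hF hS hR).T.B x y := rfl

theorem tauX_per {X : All.K3} {N : ℕ} (U : UData X.X N)
  (hF : FiniteStmt X.X) (hS : SerreStmt X.X) (hR : RRStmt X.X)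
    (e : (geo U hF hS hR).T.H) (A : H362.Ell (geo U hF hS hR).T e)
    (D : CutData X.volForm (A.π : X.X → H610.sphere.C))
  (hπ : MDifferentiable 𝓘(ℂ, ℂ × ℂ) 𝓘(ℂ) (A.π : X.X → H610.sphere.C)) (b b' : ℂ)
  (hb : b * (-(4 * (Real.pi : ℂ) ^ 2)) = b')
  (hF' : FiniteStmt (H610.Xb D hπ b).X) (hS' : SerreStmt (H610.Xb D hπ b).X) (hR' : RRStmt (H610.Xb D hπ b).X)
  (x : (geo U hF hS hR).T.H) :
  (geo (uXb D hπ b U) hF' hS' hR').σ (tauX D hπ b U hF hS hR hF' hS' hR' x) =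
    (geo U hF hS hR).σ x + b' * ((geo U hF hS hR).T.B x e : ℤ) := by
  have h1 := per_uXb D hπ b U (H362.Ell.frequently_ne A) x
  have h2 : U.clN (nD D) = e := H362.cl_nD A D hπ
  have h3 : (U.B (U.clN (nD D)) x : ℂ) = ((geo U hF hS hR).T.B x e : ℤ) := by
    rw [h2]
    exact congrArg _ (U.B_symm e x)
  refine h1.trans ?_
  rw [← mul_assoc, hb]
  exact congrArg (fun t : ℂ => pair (OmF X) (U.comb x) + b' * t) h3

theorem tauX_cl {X : All.K3} {π : X.X → H610.sphere.C} (D : CutData X.volForm π)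
  (hπ : MDifferentiable 𝓘(ℂ, ℂ × ℂ) 𝓘(ℂ) π) (b : ℂ) {N : ℕ} (U : UData X.X N)
  (hF : FiniteStmt X.X) (hS : SerreStmt X.X) (hR : RRStmt X.X)
  (hF' : FiniteStmt (H610.Xb D hπ b).X) (hS' : SerreStmt (H610.Xb D hπ b).X) (hR' : RRStmt (H610.Xb D hπ b).X)
  {N' : X.X → ℝ} (hN : IsNormFn FL.C2 N')
    (h : ∃ V, IsOpen V ∧ π ⁻¹' D.core ⊆ V ∧ ∀ x ∈ V, N' x = 1) :
    (geo (uXb D hπ b U) hF' hS' hR').T.cl (fun y => N' ((H610.ib D hπ b).symm y)) =
      tauX D hπ b U hF hS hR hF' hS' hR' ((geo U hF hS hR).T.cl N') := cl_uXb D hπ b U hN h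

end

/-- **The lattice half of the twists.** -/
theorem twLat (hF : ∀ Z : All.K3, FiniteStmt Z.X) (hS : ∀ Z : All.K3, SerreStmt Z.X)
    (hR : ∀ Z : All.K3, RRStmt Z.X) {X : All.K3} {N : ℕ} (U : UData X.X N)
    (e : (geo U (hF X) (hS X) (hR X)).T.H) (A : H362.Ell (geo U (hF X) (hS X) (hR X)).T e) :
    H362.TwLat (geo U (hF X) (hS X) (hR X)) e A.π := by
  intro D hπ b' hreg
  have hpi : (Real.pi : ℂ) ≠ 0 := by exact_mod_cast Real.pi_ne_zero
  have h4 : -(4 * (Real.pi : ℂ) ^ 2) ≠ 0 := by simp [hpi]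
  obtain ⟨b, hb⟩ : ∃ b : ℂ, b * (-(4 * (Real.pi : ℂ) ^ 2)) = b' :=
    ⟨b' / (-(4 * (Real.pi : ℂ) ^ 2)), div_mul_cancel₀ _ h4⟩
  refine ⟨b, geo (uXb D hπ b U) (hF _) (hS _) (hR _),
    tauX D hπ b U (hF X) (hS X) (hR X) (hF _) (hS _) (hR _), ?_, ?_, ?_⟩
  · intro x y
    exact tauX_B D hπ b U (hF X) (hS X) (hR X) (hF _) (hS _) (hR _) x y
  · intro x
    exact tauX_per U (hF X) (hS X) (hR X) e A D hπ b b' hb (hF _) (hS _) (hR _) x
  · intro N' hN' h
    exact tauX_cl D hπ b U (hF X) (hS X) (hR X) (hF _) (hS _) (hR _) hN' h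

end Vale.Agent.P290.H686
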